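import Vale.Agent.P022D.End.Chi
import Vale.Agent.P022D.Top.Spec
import Vale.Agent.P022.H567.GchF
import Vale.Agent.P022.H443.Tri

/-!
# P022D, block END: twists and extensions of scalars keep the hypotheses
-/

set_option linter.all false

open NumberField Matrix

noncomputable section

namespace Vale.Agent.P022D.End

open Vale.Agent.P022 Vale.Agent.P022.H567.Tw Vale.Agent.P022.H853 Vale.Agent.P022.H790.CT
  Vale.Agent.P022D.Dk Vale.Agent.P022D.Top

section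

variable {E : Type} [NontriviallyNormedField E] {χ : GQ →* Eˣ} {r : GQ →* GL (Fin 2) E}

theorem tws_ent (g : GQ) (i j : Fin 2) : (tws χ r g : Matrix (Fin 2) (Fin 2) E) i j =
    (χ g : E) * (r g : Matrix (Fin 2) (Fin 2) E) i j := by
  rw [tws_apply]
  rfl

theorem tws_tr (g : GQ) : (tws χ r g : Matrix (Fin 2) (Fin 2) E).trace =
    (χ g : E) * (r g : Matrix (Fin 2) (Fin 2) E).trace := by
  rw [tws_apply, Matrix.trace_smul, smul_eq_mul]

theorem tws_det (g : GQ) : (tws χ r g : Matrix (Fin 2) (Fin 2) E).det =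
    (χ g : E) ^ 2 * (r g : Matrix (Fin 2) (Fin 2) E).det := by
  rw [tws_apply, Matrix.det_smul, Fintype.card_fin]

theorem mono_tws {M : Subgroup GQ} (hn : ∀ g, ‖(χ g : E)‖ = 1) (h : Mono r M) :
    Mono (tws χ r) M := by
  have e : ∀ g i j, ‖(tws χ r g : Matrix (Fin 2) (Fin 2) E) i j‖ =
      ‖(r g : Matrix (Fin 2) (Fin 2) E) i j‖ := fun g i j => by
    rw [tws_ent, norm_mul, hn, one_mul]
  refine ⟨fun g i j => ?_, h.opn, h.idx, fun g hg => ?_, fun g hg => ?_, ?_, h.out⟩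
  · rw [e]
    exact h.int g i j
  · rw [e, e]
    exact h.dia g hg
  · rw [e, e]
    exact h.ant g hg
  · obtain ⟨g, a, b, c⟩ := h.reg
    refine ⟨g, a, b, ?_⟩
    rw [tws_ent, tws_ent, ← mul_sub, norm_mul, hn, one_mul]
    exact c

theorem odd_tws (h : OddRep r) : OddRep (tws χ r) := by
  intro c hc
  rw [tws_det, h c hc, ← Units.val_pow_eq_pow_val, ← map_pow, sq, H20.conj_sq hc, map_one,
    Units.val_one, one_mul]

theorem unr_tws {p : ℕ} (hχ : ∀ P : Ideal (𝓞 Qb), P.IsPrime → (p : 𝓞 Qb) ∈ P → ∀ g : GQ,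
    (∀ x : 𝓞 Qb, g • x - x ∈ P) → χ g = 1) (h : UnrAt r p) : UnrAt (tws χ r) p := by
  intro P hP hp g hg
  apply Units.ext
  rw [tws_apply, hχ P hP hp g hg, h P hP hp g hg, Units.val_one, one_smul]

variable [IsUltrametricDist E]

theorem near {x y : E} (h : ‖x - y‖ < 1) (hy : ‖y‖ < 1) : ‖x‖ < 1 := by
  rw [show x = (x - y) + y by ring]
  exact (IsUltrametricDist.norm_add_le_max _ _).trans_lt (max_lt h hy)

theorem near_mul {a x : E} (h : ‖a - 1‖ < 1) (hx : ‖x‖ ≤ 1) : ‖a * x - x‖ < 1 := by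
  rw [show a * x - x = (a - 1) * x by ring, norm_mul]
  exact (mul_le_of_le_one_right (norm_nonneg _) hx).trans_lt h

theorem near_sq {a : E} (h : ‖a - 1‖ < 1) : ‖a ^ 2 - 1‖ < 1 := by
  have := near_mul h (norm_one_of h).le
  refine near (y := a - 1) ?_ h
  rwa [show a ^ 2 - 1 - (a - 1) = a * a - a by ring]

theorem tr_le (hi : ∀ g i j, ‖(r g : Matrix (Fin 2) (Fin 2) E) i j‖ ≤ 1) (g : GQ) :
    ‖(r g : Matrix (Fin 2) (Fin 2) E).trace‖ ≤ 1 := by
  rw [Matrix.trace_fin_two]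
  exact (IsUltrametricDist.norm_add_le_max _ _).trans (max_le (hi g _ _) (hi g _ _))

theorem det_le (hi : ∀ g i j, ‖(r g : Matrix (Fin 2) (Fin 2) E) i j‖ ≤ 1) (g : GQ) :
    ‖(r g : Matrix (Fin 2) (Fin 2) E).det‖ ≤ 1 := by
  rw [Matrix.det_fin_two, sub_eq_add_neg]
  refine (IsUltrametricDist.norm_add_le_max _ _).trans (max_le ?_ ?_)
  · rw [norm_mul]
    exact mul_le_one₀ (hi g _ _) (norm_nonneg _) (hi g _ _)
  · rw [norm_neg, norm_mul]
    exact mul_le_one₀ (hi g _ _) (norm_nonneg _) (hi g _ _)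

theorem sys_le {N : ℕ} (hi : ∀ g i j, ‖(r g : Matrix (Fin 2) (Fin 2) E) i j‖ ≤ 1)
    (φ : PA N → GQ) : ∀ s, ‖sys r φ s‖ ≤ 1 := by
  rintro (l | l)
  · exact tr_le hi _
  · exact det_le hi _

theorem detOne_tws (h1 : ∀ g, ‖(χ g : E) - 1‖ < 1) (h : DetOne r) : DetOne (tws χ r) := by
  intro g
  rw [tws_det]
  refine near (y := (r g : Matrix (Fin 2) (Fin 2) E).det - 1) ?_ (h g)
  rw [sub_sub_sub_cancel_right]
  exact near_mul (near_sq (h1 g)) (norm_one_of (h g)).le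

variable [NormedAlgebra ℚ_[2] E]

theorem lift_near {S : Type} {a b : S → E} (ha : ∀ s, ‖a s‖ ≤ 1) (hb : ∀ s, ‖b s‖ ≤ 1)
    (h : ∀ s, ‖a s - b s‖ < 1) (X : FreeAlgebra ℤ S) :
    ‖FreeAlgebra.lift ℤ a X - FreeAlgebra.lift ℤ b X‖ < 1 := by
  induction X using FreeAlgebra.induction with
  | grade0 n => simp
  | grade1 s => simpa using h s
  | mul p q hp hq =>
    rw [map_mul, map_mul, show ∀ x y z w : E, x * y - z * w = (x - z) * y + z * (y - w) from
      fun _ _ _ _ => by ring]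
    refine (IsUltrametricDist.norm_add_le_max _ _).trans_lt (max_lt ?_ ?_)
    · rw [norm_mul]
      exact (mul_le_of_le_one_right (norm_nonneg _) (norm_lift_le a ha q)).trans_lt hp
    · rw [norm_mul]
      exact (mul_le_of_le_one_left (norm_nonneg _) (norm_lift_le b hb p)).trans_lt hq
  | add p q hp hq =>
    rw [map_add, map_add, add_sub_add_comm]
    exact (IsUltrametricDist.norm_add_le_max _ _).trans_lt (max_lt hp hq)

theorem lev_tws {N₀ : ℕ} [NeZero N₀] (h1 : ∀ g, ‖(χ g : E) - 1‖ < 1)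
    (hi : ∀ g i j, ‖(r g : Matrix (Fin 2) (Fin 2) E) i j‖ ≤ 1) (h : Lev r N₀) :
    Lev (tws χ r) N₀ := by
  have hi' : ∀ g i j, ‖(tws χ r g : Matrix (Fin 2) (Fin 2) E) i j‖ ≤ 1 := fun g i j => by
    rw [tws_ent, norm_mul, norm_one_of (h1 g), one_mul]
    exact hi g i j
  refine ⟨h.odd, ?_, fun l hl hd hu => h.ram l hl hd fun g hg i j => ?_,
    fun l hl hu => h.uni l hl fun P hP hp g hg => ?_⟩
  · obtain ⟨k, hk⟩ := h.res
    refine ⟨k, fun φ hφ X hX => near (lift_near (sys_le hi' φ) (sys_le hi φ) ?_ X)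
      (hk φ hφ X hX)⟩
    rintro (l | l)
    · change ‖(tws χ r (φ l) : Matrix (Fin 2) (Fin 2) E).trace -
        (r (φ l) : Matrix (Fin 2) (Fin 2) E).trace‖ < 1
      rw [tws_tr]
      exact near_mul (h1 _) (tr_le hi _)
    · change ‖(tws χ r (φ l) : Matrix (Fin 2) (Fin 2) E).det -
        (r (φ l) : Matrix (Fin 2) (Fin 2) E).det‖ < 1
      rw [tws_det]
      exact near_mul (near_sq (h1 _)) (det_le hi _)
  · refine near ?_ (hu g hg i j)
    rw [Matrix.sub_apply, Matrix.sub_apply, sub_sub_sub_cancel_right, tws_ent, norm_sub_rev]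
    exact near_mul (h1 g) (hi g i j)
  · have := hu P hP hp g hg
    rwa [tws_tr, norm_mul, norm_one_of (h1 g), one_mul] at this

theorem occ_of_lim [CompleteSpace E] {N : ℕ} [NeZero N]
    (hi : ∀ g i j, ‖(r g : Matrix (Fin 2) (Fin 2) E) i j‖ ≤ 1) (hu : ∀ l : PA N, UnrAt r l.1)
    (φ : PA N → GQ) (hφ : ∀ l, IsFrob l.1 (φ l)) (h : Lim N (sys r φ)) : Occurs E N r := by
  obtain ⟨c, hc⟩ := contHom_of_lim (sys_le hi φ) h
  refine ⟨hu, c, fun l g hg => ?_⟩
  obtain ⟨h1, h2⟩ := H20.frob_trace r l.2.1 (hu l) (hφ l) hg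
  rw [hc, hc, h1, h2]
  exact ⟨rfl, rfl⟩

theorem kw2_of [FiniteDimensional ℚ_[2] E] {ψ : GQ →* Eˣ} (hψ : Continuous ψ)
    (h : ∀ p : ℕ, p.Prime → p ≠ 2 → ∀ P : Ideal (𝓞 Qb), P.IsPrime → (p : 𝓞 Qb) ∈ P →
      ∀ g : GQ, (∀ x : 𝓞 Qb, g • x - x ∈ P) → ψ g = 1) : KW2 ψ := by
  obtain ⟨m, hm, hram, hl⟩ := kw C.GCHF ψ hψ {2} (fun p hp hp2 => h p hp (by simpa using hp2))
  have hm1 : m = 1 := by
    by_contra hne
    obtain ⟨p, hp, hpm⟩ := Nat.exists_prime_and_dvd hne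
    obtain ⟨P, hP, hpP, g, hg, hne⟩ := hram p hp hpm
    refine hne (h p hp ?_ P hP hpP g hg)
    rintro rfl
    exact (Nat.not_even_iff_odd.2 hm) (even_iff_two_dvd.2 hpm)
  intro ε hε
  obtain ⟨s, hs⟩ := hl ε hε
  exact ⟨s, fun g hg => hs (2 ^ s) (by rw [hm1, mul_one]) g hg⟩

theorem KW2.res {ψ : GQ →* Eˣ} (h : KW2 ψ) (g : GQ) : ‖((ψ g : Eˣ) : E) - 1‖ < 1 := by
  obtain ⟨s, hs⟩ := h 1 one_pos
  refine norm_lt_of_pow s ?_
  have h1 := hs (g ^ 2 ^ s) (by rw [map_pow, unit_pow])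
  rwa [map_pow, Units.val_pow_eq_pow_val] at h1

theorem norm_pow_sub_le {x y : E} (hx : ‖x‖ ≤ 1) (hy : ‖y‖ ≤ 1) (i : ℕ) :
    ‖x ^ i - y ^ i‖ ≤ ‖x - y‖ := by
  induction i with
  | zero => simp
  | succ i ih =>
    rw [show x ^ (i + 1) - y ^ (i + 1) = (x ^ i - y ^ i) * x + y ^ i * (x - y) by ring]
    refine (IsUltrametricDist.norm_add_le_max _ _).trans (max_le ?_ ?_)
    · rw [norm_mul]
      exact (mul_le_of_le_one_right (norm_nonneg _) hx).trans ih
    · rw [norm_mul, norm_pow]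
      exact mul_le_of_le_one_left (norm_nonneg _) (pow_le_one₀ (norm_nonneg _) hy)

theorem cyc_of_act {n m : ℕ} [NeZero m] (hm : m ∣ n) {g : GQ} {a : ℕ}
    (h : ∀ ζ : Qb, ζ ^ n = 1 → g ζ = ζ ^ a) : (cyc m g : ZMod m) = a := by
  have hp := zt_prim m
  have h1 := cyc_spec g hp.pow_eq_one
  rw [h _ ((hp.pow_eq_one_iff_dvd n).2 hm)] at h1
  rw [← ZMod.natCast_zmod_val (cyc m g : ZMod m), ZMod.natCast_eq_natCast_iff]
  have hf : IsOfFinOrder (zt m) := isOfFinOrder_iff_pow_eq_one.2 ⟨m, NeZero.pos m, hp.pow_eq_one⟩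
  have := hf.pow_eq_pow_iff_modEq.1 h1.symm
  rwa [← hp.eq_orderOf] at this

theorem detW_of {R : ℕ} [NeZero R] {ω : (ZMod R)ˣ →* Eˣ} {i : ℕ}
    (h : ∀ g, (r g : Matrix (Fin 2) (Fin 2) E).det =
      ((ω (cyc R g) : Eˣ) : E) * ((chiE E g : Eˣ) : E) ^ i) : DetW r R ω i := by
  intro ε hε
  obtain ⟨j, hj⟩ := ex_pow ε hε
  refine ⟨j, fun g a u hu hg => ?_⟩
  have h1 : cyc R g = u := Units.ext ((cyc_of_act (dvd_mul_left _ _) hg).trans hu.symm)
  have h2 : ‖(chi g : ℤ_[2]) - a‖ ≤ (2 : ℝ) ^ (-(j : ℤ)) := by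
    rw [norm_le_iff, chi_mod, map_natCast]
    exact cyc_of_act (dvd_mul_right _ _) hg
  rw [h, h1, ← mul_sub, norm_mul, norm_char, one_mul, chiE_coe, ← map_natCast (zE E)]
  refine (norm_pow_sub_le ?_ ?_ i).trans_lt ?_
  · rw [norm_zE]
    exact PadicInt.norm_le_one _
  · rw [norm_zE]
    exact PadicInt.norm_le_one _
  · rw [← map_sub, norm_zE]
    exact h2.trans_lt hj

end

section

variable {E : Type} [NontriviallyNormedField E] (E' : Type) [NontriviallyNormedField E']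
  [NormedAlgebra E E'] {r : GQ →* GL (Fin 2) E}

theorem detOne_bc (h : DetOne r) : DetOne (bc E' r) := by
  intro g
  rw [H20.bc_det, ← map_one (algebraMap E E'), ← map_sub, norm_algebraMap']
  exact h g

theorem lift_bc {N : ℕ} (φ : PA N → GQ) (X : FreeAlgebra ℤ (Gen N)) :
    FreeAlgebra.lift ℤ (sys (bc E' r) φ) X = algebraMap E E' (FreeAlgebra.lift ℤ (sys r φ) X) := by
  induction X using FreeAlgebra.induction with
  | grade0 n => simp
  | grade1 s =>
    rw [FreeAlgebra.lift_ι_apply, FreeAlgebra.lift_ι_apply]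
    rcases s with l | l
    · exact H20.bc_trace r _
    · exact H20.bc_det r _
  | mul p q hp hq => rw [map_mul, map_mul, map_mul, hp, hq]
  | add p q hp hq => rw [map_add, map_add, map_add, hp, hq]

theorem lev_bc {N₀ : ℕ} [NeZero N₀] (h : Lev r N₀) : Lev (bc E' r) N₀ := by
  refine ⟨h.odd, ?_, fun l hl hd hu => h.ram l hl hd fun g hg i j => ?_,
    fun l hl hu => h.uni l hl fun P hP hp g hg => ?_⟩
  · obtain ⟨k, hk⟩ := h.res
    refine ⟨k, fun φ hφ X hX => ?_⟩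
    rw [lift_bc, norm_algebraMap']
    exact hk φ hφ X hX
  · have := hu g hg i j
    rw [Matrix.sub_apply, bc_ent] at this
    have e : algebraMap E E' ((1 : Matrix (Fin 2) (Fin 2) E) i j) =
        (1 : Matrix (Fin 2) (Fin 2) E') i j := by
      rw [Matrix.one_apply, Matrix.one_apply]
      split_ifs <;> simp
    rw [Matrix.sub_apply, ← norm_algebraMap' E', map_sub, e]
    exact this
  · have := hu P hP hp g hg
    rwa [H20.bc_trace, norm_algebraMap'] at this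

/-- extension of scalars of a character -/
def bcc {G : Type} [Group G] (ψ : G →* Eˣ) : G →* E'ˣ :=
  (Units.map (algebraMap E E' : E →* E')).comp ψ

theorem bcc_coe {G : Type} [Group G] (ψ : G →* Eˣ) (g : G) :
    ((bcc E' ψ g : E'ˣ) : E') = algebraMap E E' (ψ g) := rfl

theorem KW2.bc {ψ : GQ →* Eˣ} (h : KW2 ψ) : KW2 (bcc E' ψ) := by
  intro ε hε
  obtain ⟨s, hs⟩ := h ε hε
  refine ⟨s, fun g hg => ?_⟩
  rw [bcc_coe, ← map_one (algebraMap E E'), ← map_sub, norm_algebraMap']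
  exact hs g hg

end

/-- a character of order a power of two is tame -/
theorem tame {A : Type} [CommGroup A] {m R a : ℕ} [NeZero m] [NeZero R] (hR : Odd R)
    (hm : ∀ p : ℕ, p.Prime → p ∣ m → p ∣ R) (ω : (ZMod m)ˣ →* A) (ha : ∀ u, ω u ^ 2 ^ a = 1) :
    ∃ ω' : (ZMod R)ˣ →* A, ∀ g, ω' (cyc R g) = ω (cyc m g) := by
  have hd : m ∣ R ^ (m + 1) := by
    rw [← Nat.factorization_prime_le_iff_dvd (NeZero.ne m) (pow_ne_zero _ (NeZero.ne R))]
    intro p hp
    by_cases h : p ∣ m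
    · have h1 := (hp.dvd_iff_one_le_factorization (NeZero.ne R)).1 (hm p hp h)
      have h2 := Nat.factorization_lt p (NeZero.ne m)
      rw [Nat.factorization_pow, Finsupp.smul_apply, smul_eq_mul]
      nlinarith
    · rw [Nat.factorization_eq_zero_of_not_dvd h]
      exact Nat.zero_le _
  have hk : (cyc R).ker ≤ (ω.comp (cyc m)).ker := by
    intro g hg
    have h1 := (cyc_mod (R ^ (m + 1)) (dvd_pow_self R m.succ_ne_zero) g).trans (val_of_one hg)
    have h2 := dvd_sub_pow_of_dvd_sub (R := ℤ) (p := R) ((Nat.modEq_iff_dvd.1 h1.symm)) m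
    have h3 : cyc (R ^ (m + 1)) (g ^ R ^ m) = 1 := by
      apply Units.ext
      rw [map_pow, Units.val_pow_eq_pow_val, Units.val_one,
        ← ZMod.natCast_zmod_val (cyc (R ^ (m + 1)) g : ZMod (R ^ (m + 1))), ← sub_eq_zero]
      have := (ZMod.intCast_zmod_eq_zero_iff_dvd _ (R ^ (m + 1))).2 (by exact_mod_cast h2)
      push_cast at this
      simpa using this
    have h4 : ω (cyc m g) ^ R ^ m = 1 := by
      rw [← map_pow, ← map_pow, cyc_of_dvd hd h3, map_one]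
    have hc : Nat.Coprime (2 ^ a) (R ^ m) := ((Nat.coprime_two_left.2 hR).pow a m)
    have := pow_gcd_eq_one.2 ⟨ha (cyc m g), h4⟩
    rwa [hc, pow_one] at this
  refine ⟨(cyc R).liftOfSurjective (cyc_surj R) ⟨_, hk⟩, fun g => ?_⟩
  exact MonoidHom.liftOfRightInverse_comp_apply _ _ _ _ g

end Vale.Agent.P022D.End
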