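import Vale.Agent.P022D.End.Mah

/-!
# P022D, block END: the 2-adic cyclotomic character and square roots of characters
-/

set_option linter.all false

open NumberField Matrix Filter Topology

noncomputable section

namespace Vale.Agent.P022D.End

open Vale.Agent.P022 Vale.Agent.P022.H567.Tw Vale.Agent.P022.H853 Vale.Agent.P022.H790.CT

/-- the 2-adic cyclotomic character -/
def chi : GQ →* ℤ_[2]ˣ :=
  (cyclotomicCharacter Qb 2).comp (MulSemiringAction.toRingAut GQ Qb)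

theorem chi_mod (r : ℕ) (g : GQ) :
    PadicInt.toZModPow r (chi g : ℤ_[2]) = (cyc (2 ^ r) g : ZMod (2 ^ r)) := by
  haveI : ∀ i, HasEnoughRootsOfUnity Qb (2 ^ i) := fun i => by
    have : NeZero ((2 ^ i : ℕ) : Qb) := ⟨by exact_mod_cast (NeZero.ne (2 ^ i))⟩
    infer_instance
  have hp := zt_prim (2 ^ r)
  have h1 := cyclotomicCharacter.spec 2 (n := r) (MulSemiringAction.toRingAut GQ Qb g) _
    hp.pow_eq_one
  have h2 := cyc_spec g hp.pow_eq_one
  apply ZMod.val_injective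
  exact hp.pow_inj (ZMod.val_lt _) (ZMod.val_lt _) (h1.symm.trans h2)

theorem chi_frob {l : ℕ} (hl : l.Prime) (h2 : l ≠ 2) {g : GQ} (hg : IsFrob l g) :
    (chi g : ℤ_[2]) = l := by
  rw [← PadicInt.ext_of_toZModPow]
  intro r
  rw [chi_mod, map_natCast]
  exact cyc_frob hl (fun hd => h2 ((Nat.prime_dvd_prime_iff_eq hl Nat.prime_two).1
    (hl.dvd_of_dvd_pow hd))) hg

theorem chi_conj {c : GQ} (hc : IsConj c) : (chi c : ℤ_[2]) = -1 := by
  rw [← PadicInt.ext_of_toZModPow]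
  intro r
  rw [chi_mod, map_neg, map_one]
  exact cyc_conj hc

theorem norm_le_iff (r : ℕ) (x y : ℤ_[2]) :
    ‖x - y‖ ≤ (2 : ℝ) ^ (-(r : ℤ)) ↔ PadicInt.toZModPow r x = PadicInt.toZModPow r y := by
  rw [← sub_eq_zero (a := PadicInt.toZModPow r x), ← map_sub, ← RingHom.mem_ker,
    PadicInt.ker_toZModPow, ← PadicInt.norm_le_pow_iff_mem_span_pow]
  norm_num

theorem cyc_iff (r : ℕ) (g : GQ) :
    cyc (2 ^ r) g = 1 ↔ ‖(chi g : ℤ_[2]) - 1‖ ≤ (2 : ℝ) ^ (-(r : ℤ)) := by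
  rw [norm_le_iff, chi_mod, map_one, Units.ext_iff, Units.val_one]

section

variable {E : Type} [NontriviallyNormedField E]

/-- the character is continuous of conductor `2 ^ ∞` -/
def KW2 (ψ : GQ →* Eˣ) : Prop :=
  ∀ ε : ℝ, 0 < ε → ∃ r : ℕ, ∀ g : GQ, cyc (2 ^ r) g = 1 → ‖((ψ g : Eˣ) : E) - 1‖ < ε

theorem KW2.cont {ψ : GQ →* Eˣ} (h : KW2 ψ) : Continuous ψ := by
  refine continuous_of_continuousAt_one ψ ?_
  rw [ContinuousAt, Units.isEmbedding_val₀.tendsto_nhds_iff, map_one, Units.val_one,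
    Metric.tendsto_nhds]
  intro ε hε
  obtain ⟨r, hr⟩ := h ε hε
  filter_upwards [(isOpen_cyc (2 ^ r)).mem_nhds (one_mem _)] with g hg
  rw [dist_eq_norm]
  exact hr g hg

theorem KW2.one {ψ : GQ →* Eˣ} (h : KW2 ψ) {g : GQ} (hg : g ∈ H2) : ψ g = 1 := by
  apply Units.ext
  rw [Units.val_one, ← sub_eq_zero, ← norm_le_zero_iff]
  refine le_of_forall_pos_le_add fun ε hε => ?_
  obtain ⟨r, hr⟩ := h ε hε
  rw [zero_add]
  exact (hr g (mem_H2.1 hg r)).le

theorem KW2.unr {ψ : GQ →* Eˣ} (h : KW2 ψ) {p : ℕ} (hp : p.Prime) (h2 : p ≠ 2)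
    {P : Ideal (𝓞 Qb)} (hP : P.IsPrime) (hpP : (p : 𝓞 Qb) ∈ P) {g : GQ}
    (hg : ∀ x : 𝓞 Qb, g • x - x ∈ P) : ψ g = 1 :=
  h.one (inert_H2 hp h2 hP hpP hg)

theorem KW2.norm [IsUltrametricDist E] {ψ : GQ →* Eˣ} (h : KW2 ψ) (g : GQ) :
    ‖((ψ g : Eˣ) : E)‖ = 1 := by
  obtain ⟨r, hr⟩ := h 1 one_pos
  have h1 := norm_one_of (hr (g ^ 2 ^ r) (by rw [map_pow, unit_pow]))
  rw [map_pow, Units.val_pow_eq_pow_val, norm_pow] at h1
  exact (pow_eq_one_iff_of_nonneg (norm_nonneg _) (by positivity)).1 h1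

theorem KW2.mul [IsUltrametricDist E] {ψ φ : GQ →* Eˣ} (h : KW2 ψ) (h' : KW2 φ) :
    KW2 (ψ * φ) := by
  intro ε hε
  obtain ⟨r, hr⟩ := h ε hε
  obtain ⟨s, hs⟩ := h' ε hε
  refine ⟨r + s, fun g hg => ?_⟩
  have h1 := hr g (cyc_of_dvd (pow_dvd_pow 2 (Nat.le_add_right r s)) hg)
  have h2 := hs g (cyc_of_dvd (pow_dvd_pow 2 (Nat.le_add_left s r)) hg)
  have e : (((ψ * φ) g : Eˣ) : E) - 1 =
      (((ψ g : Eˣ) : E) - 1) * ((φ g : Eˣ) : E) + (((φ g : Eˣ) : E) - 1) := by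
    rw [MonoidHom.mul_apply, Units.val_mul]
    ring
  rw [e]
  refine (IsUltrametricDist.norm_add_le_max _ _).trans_lt (max_lt ?_ h2)
  rw [norm_mul, h'.norm, mul_one]
  exact h1

theorem KW2.inv [IsUltrametricDist E] {ψ : GQ →* Eˣ} (h : KW2 ψ) : KW2 ψ⁻¹ := by
  intro ε hε
  obtain ⟨r, hr⟩ := h ε hε
  refine ⟨r, fun g hg => ?_⟩
  rw [MonoidHom.inv_apply, ← map_inv]
  exact hr _ (by rw [map_inv, hg, inv_one])

theorem KW2.pow [IsUltrametricDist E] {ψ : GQ →* Eˣ} (h : KW2 ψ) (n : ℕ) : KW2 (ψ ^ n) := by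
  induction n with
  | zero => exact fun ε hε => ⟨0, fun g _ => by simpa using hε⟩
  | succ n ih =>
    have e : ψ ^ (n + 1) = ψ ^ n * ψ := MonoidHom.ext fun g => by
      rw [MonoidHom.mul_apply, MonoidHom.pow_apply, MonoidHom.pow_apply, pow_succ]
    rw [e]
    exact ih.mul h

variable [NormedAlgebra ℚ_[2] E]

/-- the ring map from the 2-adic integers -/
def zE (E : Type) [NontriviallyNormedField E] [NormedAlgebra ℚ_[2] E] : ℤ_[2] →+* E :=
  (algebraMap ℚ_[2] E).comp PadicInt.Coe.ringHom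

theorem norm_zE (z : ℤ_[2]) : ‖zE E z‖ = ‖z‖ := norm_algebraMap' E (z : ℚ_[2])

/-- the cyclotomic character with values in `E` -/
def chiE (E : Type) [NontriviallyNormedField E] [NormedAlgebra ℚ_[2] E] : GQ →* Eˣ :=
  (Units.map (zE E : ℤ_[2] →* E)).comp chi

theorem chiE_coe (g : GQ) : ((chiE E g : Eˣ) : E) = zE E (chi g) := rfl

theorem chiE_frob {l : ℕ} (hl : l.Prime) (h2 : l ≠ 2) {g : GQ} (hg : IsFrob l g) :
    ((chiE E g : Eˣ) : E) = l := by
  rw [chiE_coe, chi_frob hl h2 hg, map_natCast]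

theorem chiE_conj {c : GQ} (hc : IsConj c) : ((chiE E c : Eˣ) : E) = -1 := by
  rw [chiE_coe, chi_conj hc, map_neg, map_one]

theorem ex_pow (ε : ℝ) (hε : 0 < ε) : ∃ r : ℕ, (2 : ℝ) ^ (-(r : ℤ)) < ε := by
  obtain ⟨r, hr⟩ := exists_pow_lt_of_lt_one hε (by norm_num : (2 : ℝ)⁻¹ < 1)
  exact ⟨r, by rwa [_root_.zpow_neg, _root_.zpow_natCast, ← inv_pow]⟩

theorem kw2_chi : KW2 (chiE E) := by
  intro ε hε
  obtain ⟨r, hr⟩ := ex_pow ε hε
  refine ⟨r, fun g hg => ?_⟩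
  rw [chiE_coe, ← map_one (zE E), ← map_sub, norm_zE]
  exact ((cyc_iff r g).1 hg).trans_lt hr

end

theorem surj_of_isometry {X : Type} [MetricSpace X] [CompactSpace X] {f : X → X}
    (hf : Isometry f) : Function.Surjective f := by
  intro y
  by_contra hy
  have hc : IsClosed (Set.range f) := (isCompact_range hf.continuous).isClosed
  obtain ⟨δ, hδ, hb⟩ := Metric.isOpen_iff.1 hc.isOpen_compl y hy
  have h1 : ∀ m n : ℕ, δ ≤ dist (f^[m] y) (f^[m + (n + 1)] y) := by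
    intro m n
    induction m with
    | zero =>
      by_contra h
      rw [not_le, zero_add, Function.iterate_zero_apply, dist_comm,
        Function.iterate_succ_apply'] at h
      exact hb h ⟨_, rfl⟩
    | succ m ih =>
      rw [Nat.succ_add, Function.iterate_succ_apply', Function.iterate_succ_apply', hf.dist_eq]
      exact ih
  obtain ⟨a, φ, hφ, hl⟩ := CompactSpace.tendsto_subseq fun n => f^[n] y
  obtain ⟨M, hM⟩ := Metric.cauchySeq_iff.1 hl.cauchySeq δ hδ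
  have h2 := hM M le_rfl (M + 1) (Nat.le_succ M)
  obtain ⟨n, hn⟩ := Nat.exists_eq_add_of_lt (hφ (Nat.lt_succ_self M))
  have h3 := h1 (φ M) n
  rw [← add_assoc, ← hn] at h3
  exact absurd h2 (not_lt.2 h3)

theorem norm_two : ‖(2 : ℤ_[2])‖ = 2⁻¹ := by
  have := PadicInt.norm_p (p := 2)
  exact_mod_cast this

theorem norm_pow_sub {a : ℤ_[2]} (ha : ‖a - 1‖ ≤ 4⁻¹) (n : ℕ) :
    ‖a ^ n - 1‖ = ‖a - 1‖ * ‖(n : ℤ_[2])‖ := by
  induction n using Nat.strong_induction_on generalizing a with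
  | _ n ih =>
    rcases Nat.eq_zero_or_pos n with rfl | hn
    · simp
    rcases Nat.even_or_odd' n with ⟨m, rfl | rfl⟩
    · have h2 : ‖a + 1‖ = 2⁻¹ := by
        have e : a + 1 = (a - 1) + 2 := by ring
        have hlt : ‖a - 1‖ < ‖(2 : ℤ_[2])‖ := by
          rw [norm_two]
          linarith
        rw [e, IsUltrametricDist.norm_add_eq_max_of_norm_ne_norm hlt.ne, max_eq_right hlt.le,
          norm_two]
      have h3 : ‖a ^ 2 - 1‖ = ‖a - 1‖ * 2⁻¹ := by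
        rw [show a ^ 2 - 1 = (a - 1) * (a + 1) by ring, norm_mul, h2]
      rw [pow_mul, ih m (by omega) (by rw [h3]; nlinarith [norm_nonneg (a - 1)]), h3]
      push_cast
      rw [norm_mul, norm_two, mul_assoc]
    · have h1 : ‖((2 * m + 1 : ℕ) : ℤ_[2])‖ = 1 := by
        have hlt : ‖(2 * m : ℤ_[2])‖ < ‖(1 : ℤ_[2])‖ := by
          rw [norm_mul, norm_two, norm_one]
          nlinarith [PadicInt.norm_le_one (m : ℤ_[2])]
        push_cast
        rw [IsUltrametricDist.norm_add_eq_max_of_norm_ne_norm hlt.ne, max_eq_right hlt.le,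
          norm_one]
      obtain ⟨w, hw⟩ : a - 1 ∣ ∑ i ∈ Finset.range (2 * m + 1), a ^ i - (2 * m + 1 : ℕ) := by
        have e : ∑ i ∈ Finset.range (2 * m + 1), a ^ i - (2 * m + 1 : ℕ) =
            ∑ i ∈ Finset.range (2 * m + 1), (a ^ i - 1) := by
          rw [Finset.sum_sub_distrib]
          simp
        rw [e]
        exact Finset.dvd_sum fun i _ => by simpa using sub_dvd_pow_sub_pow a 1 i
      have hlt : ‖(a - 1) * w‖ < ‖((2 * m + 1 : ℕ) : ℤ_[2])‖ := by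
        rw [h1, norm_mul]
        nlinarith [PadicInt.norm_le_one w, norm_nonneg (a - 1)]
      rw [← mul_geom_sum, norm_mul, eq_add_of_sub_eq hw,
        IsUltrametricDist.norm_add_eq_max_of_norm_ne_norm hlt.ne, max_eq_right hlt.le]

/-- the logarithm to the base `a` -/
theorem ex_log {a : ℤ_[2]} (ha : ‖a - 1‖ = 4⁻¹) : ∃ κ : AddChar ℤ_[2] ℤ_[2], κ 1 = a ∧
    (∀ z w, ‖κ z - κ w‖ = 4⁻¹ * ‖z - w‖) ∧ ∀ x : ℤ_[2], ‖x - 1‖ ≤ 4⁻¹ → ∃ z, κ z = x := by
  have hr : Tendsto ((a - 1) ^ ·) atTop (𝓝 0) :=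
    tendsto_pow_atTop_nhds_zero_of_norm_lt_one (by rw [ha]; norm_num)
  set κ := PadicInt.addChar_of_value_at_one (p := 2) (a - 1) hr
  have hc : Continuous κ := PadicInt.continuous_addChar_of_value_at_one hr
  have h1 : κ 1 = a := by
    rw [PadicInt.addChar_of_value_at_one_def]
    ring
  have h2 : ∀ z, ‖κ z - 1‖ = 4⁻¹ * ‖z‖ := by
    intro z
    refine PadicInt.denseRange_natCast.induction_on z
      (isClosed_eq (by fun_prop) (by fun_prop)) fun n => ?_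
    rw [← nsmul_one, AddChar.map_nsmul_eq_pow, h1, norm_pow_sub ha.le, ha, nsmul_one]
  have h3 : ∀ z w, ‖κ z - κ w‖ = 4⁻¹ * ‖z - w‖ := by
    intro z w
    have hu : ‖κ w‖ = 1 := by
      rw [← PadicInt.isUnit_iff]
      exact IsUnit.of_mul_eq_one (κ (-w)) (by rw [← AddChar.map_add_eq_mul]; simp)
    have e : κ z - κ w = κ w * (κ (z - w) - 1) := by
      rw [mul_sub, ← AddChar.map_add_eq_mul]
      simp
    rw [e, norm_mul, hu, one_mul, h2]
  have h4 : ‖(4 : ℤ_[2])‖ = 4⁻¹ := by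
    rw [show (4 : ℤ_[2]) = 2 * 2 by norm_num, norm_mul, norm_two]
    norm_num
  have h5 : ∀ x : ℤ_[2], ‖x - 1‖ ≤ 4⁻¹ → ∃ y, x - 1 = 4 * y := by
    intro x hx
    have : x - 1 ∈ Ideal.span {((2 : ℕ) : ℤ_[2]) ^ 2} := by
      rw [← PadicInt.norm_le_pow_iff_mem_span_pow]
      norm_num
      linarith
    obtain ⟨y, hy⟩ := Ideal.mem_span_singleton.1 this
    exact ⟨y, by rw [hy]; norm_num⟩
  choose f hf using fun z => h5 (κ z) (by
    rw [h2]; nlinarith [PadicInt.norm_le_one z])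
  have hi : Isometry f := by
    refine Isometry.of_dist_eq fun z w => ?_
    have := h3 z w
    rw [show κ z - κ w = 4 * (f z - f w) by rw [mul_sub, ← hf, ← hf]; ring, norm_mul, h4] at this
    rw [dist_eq_norm, dist_eq_norm]
    linarith
  refine ⟨κ, h1, h3, fun x hx => ?_⟩
  obtain ⟨y, hy⟩ := h5 x hx
  obtain ⟨z, hz⟩ := surj_of_isometry hi y
  exact ⟨z, by linear_combination hf z - hy + 4 * hz⟩

/-- the sign modulo 4 -/
def sg4 (g : GQ) : ℤ_[2] := if cyc (2 ^ 2) g = 1 then 1 else -1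

theorem units4 (u : (ZMod (2 ^ 2))ˣ) : u = 1 ∨ u = -1 := by
  revert u
  decide

theorem sg4_mul (g h : GQ) : sg4 (g * h) = sg4 g * sg4 h := by
  have hne : (-1 : (ZMod (2 ^ 2))ˣ) ≠ 1 := by decide
  unfold sg4
  rw [map_mul]
  rcases units4 (cyc (2 ^ 2) g) with a | a <;> rcases units4 (cyc (2 ^ 2) h) with b | b <;>
    rw [a, b]
  · rw [mul_one, if_pos rfl, mul_one]
  · rw [one_mul, if_pos rfl, one_mul]
  · rw [mul_one, if_pos rfl, mul_one]
  · rw [neg_mul_neg, mul_one, if_pos rfl, if_neg hne, neg_mul_neg, mul_one]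

theorem sg4_near (g : GQ) : ‖sg4 g * (chi g : ℤ_[2]) - 1‖ ≤ 4⁻¹ := by
  have hne : (-1 : (ZMod (2 ^ 2))ˣ) ≠ 1 := by decide
  have e : (4⁻¹ : ℝ) = (2 : ℝ) ^ (-((2 : ℕ) : ℤ)) := by norm_num
  rw [e, norm_le_iff, map_mul, chi_mod, map_one]
  unfold sg4
  rcases units4 (cyc (2 ^ 2) g) with a | a
  · rw [a, if_pos rfl]
    simp
  · rw [a, if_neg hne]
    simp

theorem ex_five : ∃ g : GQ, cyc (2 ^ 2) g = 1 ∧ ‖(chi g : ℤ_[2]) - 1‖ = 4⁻¹ := by
  obtain ⟨g, hg⟩ := H20.exists_isFrob (by norm_num : Nat.Prime 5)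
  have h := chi_frob (by norm_num : Nat.Prime 5) (by norm_num) hg
  have h4 : ‖(chi g : ℤ_[2]) - 1‖ = 4⁻¹ := by
    rw [h, show ((5 : ℕ) : ℤ_[2]) - 1 = 2 * 2 by norm_num, norm_mul, norm_two]
    norm_num
  refine ⟨g, (cyc_iff 2 g).2 (h4.le.trans (by norm_num)), h4⟩

/-- **square roots of even characters** -/
theorem sqrt_char {E : Type} [NontriviallyNormedField E] [NormedAlgebra ℚ_[2] E]
    [IsUltrametricDist E] [CompleteSpace E] {η : GQ →* Eˣ} (hη : KW2 η) {c : GQ}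
    (hc : IsConj c) (hηc : η c = 1) {g0 : GQ} (h0 : cyc (2 ^ 2) g0 = 1)
    (h1 : ‖(chi g0 : ℤ_[2]) - 1‖ = 4⁻¹) {s : E} (hs : s ^ 2 = η g0) (hs1 : ‖s - 1‖ < 1) :
    ∃ ψ : GQ →* Eˣ, KW2 ψ ∧ ∀ g, ψ g ^ 2 = η g := by
  letI : Algebra ℤ_[2] E := (zE E).toAlgebra
  haveI : IsBoundedSMul ℤ_[2] E := by
    refine IsBoundedSMul.of_norm_smul_le fun z x => ?_
    rw [Algebra.smul_def, norm_mul]
    exact le_of_eq (congrArg (· * ‖x‖) (norm_zE z))
  have hr : Tendsto ((s - 1) ^ ·) atTop (𝓝 0) := tendsto_pow_atTop_nhds_zero_of_norm_lt_one hs1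
  set lam := PadicInt.addChar_of_value_at_one (p := 2) (s - 1) hr
  have hlc : Continuous lam := PadicInt.continuous_addChar_of_value_at_one hr
  have hl1 : lam 1 = s := by
    rw [PadicInt.addChar_of_value_at_one_def]
    ring
  obtain ⟨κ, hκ1, hκ, hsur⟩ := ex_log h1
  choose z hz using fun g => hsur _ (sg4_near g)
  have hinj : ∀ a b, κ a = κ b → a = b := by
    intro a b h
    have := hκ a b
    rw [h, sub_self, norm_zero] at this
    exact sub_eq_zero.1 (norm_eq_zero.1 (by linarith))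
  have hzm : ∀ g h, z (g * h) = z g + z h := by
    intro g h
    apply hinj
    rw [AddChar.map_add_eq_mul, hz, hz, hz, sg4_mul, map_mul, Units.val_mul]
    ring
  let ψ : GQ →* Eˣ := MonoidHom.toHomUnits
    { toFun := fun g => lam (z g)
      map_one' := by
        have : z 1 = 0 := by simpa using hzm 1 1
        rw [this, AddChar.map_zero_eq_one]
      map_mul' := fun g h => by rw [hzm, AddChar.map_add_eq_mul] }
  have hψ : ∀ g, ((ψ g : Eˣ) : E) = lam (z g) := fun _ => rfl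
  have hk : KW2 ψ := by
    intro ε hε
    obtain ⟨δ, hδ, hd⟩ := Metric.continuousAt_iff.1 (hlc.continuousAt (x := 0)) ε hε
    obtain ⟨r, hr⟩ := ex_pow (δ / 4) (by positivity)
    refine ⟨r + 2, fun g hg => ?_⟩
    have a1 := (cyc_iff r g).1 (cyc_of_dvd (pow_dvd_pow 2 (Nat.le_add_right r 2)) hg)
    have a2 : sg4 g = 1 := if_pos (cyc_of_dvd (pow_dvd_pow 2 (Nat.le_add_left 2 r)) hg)
    have a3 := hκ (z g) 0
    rw [hz, a2, one_mul, AddChar.map_zero_eq_one, sub_zero] at a3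
    have a4 := hd (x := z g) (by rw [dist_zero_right]; linarith)
    rwa [AddChar.map_zero_eq_one, dist_eq_norm] at a4
  refine ⟨ψ, hk, fun g => ?_⟩
  have hk2 : KW2 (ψ ^ 2 * η⁻¹) := (hk.pow 2).mul hη.inv
  have hap : ∀ g, (ψ ^ 2 * η⁻¹) g = ψ g ^ 2 * (η g)⁻¹ := fun _ => rfl
  have hg0 : (ψ ^ 2 * η⁻¹) g0 = 1 := by
    have a2 : sg4 g0 = 1 := if_pos h0
    have : z g0 = 1 := hinj _ _ (by rw [hz, hκ1, a2, one_mul])
    rw [hap, mul_inv_eq_one]
    apply Units.ext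
    rw [Units.val_pow_eq_pow_val, hψ, this, hl1, hs]
  have hgc : (ψ ^ 2 * η⁻¹) c = 1 := by
    rw [hap, hηc, inv_one, mul_one, ← map_pow, sq, H20.conj_sq hc, map_one]
  have hsc : sg4 c = -1 := by
    have h := sg4_near c
    rw [chi_conj hc] at h
    unfold sg4 at h ⊢
    split_ifs at h ⊢
    · rw [show (1 : ℤ_[2]) * -1 - 1 = -2 by ring, norm_neg, norm_two] at h
      norm_num at h
    · rfl
  have key : ∀ g, sg4 g = 1 → (ψ ^ 2 * η⁻¹) g = 1 := by
    intro g hg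
    apply Units.ext
    rw [Units.val_one, ← sub_eq_zero, ← norm_le_zero_iff]
    refine le_of_forall_pos_le_add fun ε hε => ?_
    obtain ⟨r, hr⟩ := hk2 ε hε
    obtain ⟨n, hn⟩ := PadicInt.denseRange_natCast.exists_dist_lt (z g)
      (show (0 : ℝ) < 2 ^ (-(r : ℤ)) by positivity)
    have a1 := hκ (z g) n
    rw [hz, hg, one_mul, ← nsmul_one, AddChar.map_nsmul_eq_pow, hκ1, nsmul_one] at a1
    have a2 : cyc (2 ^ r) (g * (g0 ^ n)⁻¹) = 1 := by
      rw [map_mul, map_inv, mul_inv_eq_one]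
      apply Units.ext
      rw [← chi_mod, ← chi_mod, ← norm_le_iff, map_pow, Units.val_pow_eq_pow_val, a1]
      rw [dist_eq_norm] at hn
      nlinarith [norm_nonneg (z g - n)]
    have a3 := hr _ a2
    rw [map_mul, map_inv, map_pow, hg0, one_pow, inv_one, mul_one] at a3
    rw [zero_add]
    exact a3.le
  rw [← mul_inv_eq_one, ← hap]
  by_cases hg : cyc (2 ^ 2) g = 1
  · exact key g (if_pos hg)
  · have := key (g * c) (by rw [sg4_mul, hsc, show sg4 g = -1 from if_neg hg]; ring)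
    rwa [map_mul, hgc, mul_one] at this

end Vale.Agent.P022D.End
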