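import Vale.Agent.P022.H567.Tw.Main
import Vale.Agent.P022.H790.L3.Ct3

/-!
# P022D, block END: twists of systems of eigenvalues by continuous characters unramified outside 2
-/

set_option linter.all false

open NumberField Matrix

noncomputable section

namespace Vale.Agent.P022D.End

open Vale.Agent.P022 Vale.Agent.P022.H567.Tw Vale.Agent.P022.H853

/-- the twist of a system by a function on the primes -/
def twc {N : ℕ} {E : Type} [CommRing E] (w : PA N → E) (a : Gen N → E) : Gen N → E :=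
  Sum.elim (fun l => w l * a (Sum.inl l)) (fun l => w l ^ 2 * a (Sum.inr l))

section

variable {E : Type} [NontriviallyNormedField E] [NormedAlgebra ℚ_[2] E]

/-- the homogeneous components of a word -/
theorem comp [IsUltrametricDist E] {N : ℕ} (a : Gen N → E) (ha : ∀ s, ‖a s‖ ≤ 1)
    (X : FreeAlgebra ℤ (Gen N)) :
    ∃ (ι : Type) (_ : Fintype ι) (μ : ι → FreeMonoid (PA N)) (x : ι → E), (∀ i, ‖x i‖ ≤ 1) ∧
      ∀ φ : FreeMonoid (PA N) →* E,
        FreeAlgebra.lift ℤ (twc (fun l => φ (FreeMonoid.of l)) a) X = ∑ i, φ (μ i) * x i := by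
  induction X using FreeAlgebra.induction with
  | grade0 n =>
    refine ⟨Unit, inferInstance, fun _ => 1, fun _ => (n : E), fun _ => ?_, fun φ => ?_⟩
    · have h1 : ((n : ℤ) : E) = algebraMap ℚ_[2] E (n : ℚ_[2]) := by simp
      rw [h1, norm_algebraMap']
      exact Padic.norm_int_le_one n
    · rw [AlgHom.commutes]
      simp
  | grade1 s =>
    rcases s with l | l
    · refine ⟨Unit, inferInstance, fun _ => FreeMonoid.of l, fun _ => a (Sum.inl l),
        fun _ => ha _, fun φ => ?_⟩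
      rw [FreeAlgebra.lift_ι_apply]
      simp [twc]
    · refine ⟨Unit, inferInstance, fun _ => FreeMonoid.of l ^ 2, fun _ => a (Sum.inr l),
        fun _ => ha _, fun φ => ?_⟩
      rw [FreeAlgebra.lift_ι_apply]
      simp [twc]
  | mul p q hp hq =>
    obtain ⟨ι, _, μ, x, hx, h⟩ := hp
    obtain ⟨κ, _, ν, y, hy, h'⟩ := hq
    refine ⟨ι × κ, inferInstance, fun i => μ i.1 * ν i.2, fun i => x i.1 * y i.2, fun i => ?_,
      fun φ => ?_⟩
    · rw [norm_mul]
      exact mul_le_one₀ (hx _) (norm_nonneg _) (hy _)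
    · rw [map_mul, h, h', Finset.sum_mul_sum, Fintype.sum_prod_type]
      refine Finset.sum_congr rfl fun i _ => Finset.sum_congr rfl fun j _ => ?_
      rw [map_mul]
      ring
  | add p q hp hq =>
    obtain ⟨ι, _, μ, x, hx, h⟩ := hp
    obtain ⟨κ, _, ν, y, hy, h'⟩ := hq
    refine ⟨ι ⊕ κ, inferInstance, Sum.elim μ ν, Sum.elim x y, fun i => ?_, fun φ => ?_⟩
    · rcases i with i | i
      · exact hx i
      · exact hy i
    · rw [map_add, h, h', Fintype.sum_sum_type]
      rfl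

/-- a function modulo `2 ^ r` is a uniform limit of polynomials -/
theorem poly_approx [IsUltrametricDist E] [CompleteSpace E] (r : ℕ) (f : ZMod (2 ^ r) → E)
    (ε : ℝ) (hε : 0 < ε) : ∃ p : Polynomial E, ∀ n : ℕ, ‖f n - p.eval (n : E)‖ < ε := by
  letI : Module ℤ_[2] E := Module.compHom E (algebraMap ℤ_[2] ℚ_[2])
  have hs : ∀ (z : ℤ_[2]) (x : E), z • x = (z : ℚ_[2]) • x := fun _ _ => rfl
  haveI : IsBoundedSMul ℤ_[2] E := by
    refine IsBoundedSMul.of_norm_smul_le fun z x => ?_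
    rw [hs, norm_smul]
    rfl
  have hc : Continuous fun x : ℤ_[2] => f (PadicInt.toZModPow r x) := by
    refine IsLocallyConstant.continuous ((IsLocallyConstant.iff_exists_open _).2 fun x => ?_)
    refine ⟨Metric.closedBall x ((2 : ℝ) ^ (-(r : ℤ))),
      IsUltrametricDist.isOpen_closedBall _ (by positivity), Metric.mem_closedBall_self (by positivity),
      fun y hy => ?_⟩
    congr 1
    rw [← sub_eq_zero, ← map_sub, ← RingHom.mem_ker, PadicInt.ker_toZModPow,
      ← PadicInt.norm_le_pow_iff_mem_span_pow]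
    rw [Metric.mem_closedBall, dist_eq_norm] at hy
    exact_mod_cast hy
  let F : C(ℤ_[2], E) := ⟨_, hc⟩
  have h := PadicInt.hasSum_mahler F
  obtain ⟨s, hs'⟩ := (Metric.tendsto_nhds.1 h ε hε).exists
  refine ⟨∑ k ∈ s, Polynomial.C (((fwdDiff (1 : ℤ_[2]))^[k] F 0) / (k.factorial : E)) *
    descPochhammer E k, fun n => ?_⟩
  have h1 : F (n : ℤ_[2]) = f n := by
    change f (PadicInt.toZModPow r (n : ℤ_[2])) = f n
    rw [map_natCast]
  haveI : CharZero E := charZero_of_injective_algebraMap (algebraMap ℚ_[2] E).injective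
  have h2 : (∑ k ∈ s, PadicInt.mahlerTerm (p := 2) ((fwdDiff (1 : ℤ_[2]))^[k] F 0) k) (n : ℤ_[2]) =
      (∑ k ∈ s, Polynomial.C (((fwdDiff (1 : ℤ_[2]))^[k] F 0) / (k.factorial : E)) *
        descPochhammer E k).eval (n : E) := by
    rw [ContinuousMap.sum_apply, Polynomial.eval_finsetSum]
    refine Finset.sum_congr rfl fun k _ => ?_
    rw [PadicInt.mahlerTerm_apply, mahler_natCast_eq, Nat.cast_smul_eq_nsmul, Polynomial.eval_mul,
      Polynomial.eval_C, descPochhammer_eval_eq_descFactorial, nsmul_eq_mul,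
      Nat.descFactorial_eq_factorial_mul_choose]
    have : (k.factorial : E) ≠ 0 := by exact_mod_cast k.factorial_ne_zero
    push_cast
    field_simp
  rw [← h1, ← h2, ← dist_eq_norm, dist_comm]
  exact (ContinuousMap.dist_apply_le_dist _).trans_lt hs'

/-- **the twist by a continuous character of conductor `2 ^ ∞`** -/
theorem lim_tw [IsUltrametricDist E] [CompleteSpace E] {N : ℕ} [NeZero N] (a : Gen N → E)
    (ha : ∀ s, ‖a s‖ ≤ 1) (ψ : GQ →* Eˣ) (hn : ∀ g, ‖((ψ g : Eˣ) : E)‖ ≤ 1)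
    (hψ : ∀ ε : ℝ, 0 < ε → ∃ r : ℕ, ∀ g : GQ, cyc (2 ^ r) g = 1 → ‖((ψ g : Eˣ) : E) - 1‖ < ε)
    (φ : PA N → GQ) (hφ : ∀ l, IsFrob l.1 (φ l))
    (h : ∀ ν : ℕ, Lim N (twc (fun l => (l.1 : E) ^ ν) a)) :
    Lim N (twc (fun l => ((ψ (φ l) : Eˣ) : E)) a) := by
  classical
  intro ε hε
  obtain ⟨r, hr⟩ := hψ ε hε
  choose G hG using H790.CT.cyc_surj (2 ^ r)
  let f : ZMod (2 ^ r) → E := fun u => if hu : IsUnit u then ((ψ (G hu.unit) : Eˣ) : E) else 0
  obtain ⟨p, hp⟩ := poly_approx r f ε hε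
  have hb : ∀ ν : ℕ, ∃ k : ℕ, ∀ x : FreeAlgebra ℤ (Gen N),
      (∀ i < k, FreeAlgebra.lift ℤ (fun s => gHk N s i) x = 0) →
        ‖p.coeff ν * FreeAlgebra.lift ℤ (twc (fun l => (l.1 : E) ^ ν) a) x‖ < ε := by
    intro ν
    have h0 : 0 < ‖p.coeff ν‖ + 1 := by positivity
    obtain ⟨k, hk⟩ := h ν (ε / (‖p.coeff ν‖ + 1)) (by positivity)
    refine ⟨k, fun x hx => ?_⟩
    have h1 := hk x hx
    rw [lt_div_iff₀ h0] at h1
    rw [norm_mul]
    nlinarith [norm_nonneg (p.coeff ν),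
      norm_nonneg (FreeAlgebra.lift ℤ (twc (fun l => (l.1 : E) ^ ν) a) x)]
  choose k hk using hb
  refine ⟨(Finset.range (p.natDegree + 1)).sup k, fun X hX => ?_⟩
  obtain ⟨ι, _, μ, x, hx, hc⟩ := comp a ha X
  let gm : FreeMonoid (PA N) →* GQ := FreeMonoid.lift φ
  let nm : FreeMonoid (PA N) →* ℕ := FreeMonoid.lift fun l => l.1
  have hcy : ∀ m, (cyc (2 ^ r) (gm m) : ZMod (2 ^ r)) = (nm m : ℕ) := by
    intro m
    induction m using FreeMonoid.inductionOn with
    | one => simp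
    | of l =>
      simp only [gm, nm, FreeMonoid.lift_eval_of]
      refine cyc_frob l.2.1 (fun hd => l.2.2 ?_) (hφ l)
      exact (l.2.1.dvd_of_dvd_pow hd).mul_right N
    | mul m m' h1 h2 => rw [map_mul, map_mul, map_mul, Units.val_mul, h1, h2, Nat.cast_mul]
  have hap : ∀ m, ‖((ψ (gm m) : Eˣ) : E) - p.eval ((nm m : ℕ) : E)‖ < ε := by
    intro m
    have hu : IsUnit ((nm m : ℕ) : ZMod (2 ^ r)) := by
      rw [← hcy]
      exact Units.isUnit _
    have h1 : f (nm m : ℕ) = ((ψ (G hu.unit) : Eˣ) : E) := dif_pos hu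
    have h2 : cyc (2 ^ r) ((G hu.unit)⁻¹ * gm m) = 1 := by
      rw [map_mul, map_inv, hG, inv_mul_eq_one]
      exact Units.ext (hcy m).symm
    have h3 := hr _ h2
    have h4 : ((ψ (gm m) : Eˣ) : E) - p.eval ((nm m : ℕ) : E) =
        ((ψ (G hu.unit) : Eˣ) : E) * (((ψ ((G hu.unit)⁻¹ * gm m) : Eˣ) : E) - 1) +
          (f (nm m : ℕ) - p.eval ((nm m : ℕ) : E)) := by
      rw [h1, mul_sub, ← Units.val_mul, ← map_mul, mul_inv_cancel_left]
      ring
    rw [h4]
    refine (IsUltrametricDist.norm_add_le_max _ _).trans_lt (max_lt ?_ (hp _))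
    rw [norm_mul]
    exact (mul_le_of_le_one_left (norm_nonneg _) (hn _)).trans_lt h3
  have e1 := hc (((Units.coeHom E).comp ψ).comp gm)
  have e2 : ∀ ν : ℕ, FreeAlgebra.lift ℤ (twc (fun l => (l.1 : E) ^ ν) a) X =
      ∑ i, ((nm (μ i) : ℕ) : E) ^ ν * x i := by
    intro ν
    have := hc (((powMonoidHom ν).comp (Nat.castRingHom E : ℕ →* E)).comp nm)
    simpa [nm] using this
  have e3 : FreeAlgebra.lift ℤ (twc (fun l => ((ψ (φ l) : Eˣ) : E)) a) X =
      ∑ i, (((ψ (gm (μ i)) : Eˣ) : E) - p.eval ((nm (μ i) : ℕ) : E)) * x i +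
        ∑ ν ∈ Finset.range (p.natDegree + 1),
          p.coeff ν * FreeAlgebra.lift ℤ (twc (fun l => (l.1 : E) ^ ν) a) X := by
    have e4 : FreeAlgebra.lift ℤ (twc (fun l => ((ψ (φ l) : Eˣ) : E)) a) X =
        ∑ i, ((ψ (gm (μ i)) : Eˣ) : E) * x i := by
      simpa [gm] using e1
    rw [e4]
    simp_rw [e2, Finset.mul_sum]
    rw [Finset.sum_comm, ← Finset.sum_add_distrib]
    refine Finset.sum_congr rfl fun i _ => ?_
    rw [Polynomial.eval_eq_sum_range, sub_mul, Finset.sum_mul]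
    simp_rw [mul_assoc]
    ring
  rw [e3]
  refine (IsUltrametricDist.norm_add_le_max _ _).trans_lt (max_lt ?_ ?_)
  · rcases isEmpty_or_nonempty ι with hι | hι
    · simpa using hε
    · obtain ⟨i, -, hi⟩ := IsUltrametricDist.exists_norm_finsetSum_le_of_nonempty
        (Finset.univ_nonempty (α := ι))
        (fun i => (((ψ (gm (μ i)) : Eˣ) : E) - p.eval ((nm (μ i) : ℕ) : E)) * x i)
      refine hi.trans_lt ?_
      rw [norm_mul]
      exact (mul_le_of_le_one_right (norm_nonneg _) (hx _)).trans_lt (hap _)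
  · obtain ⟨ν, hν, hi⟩ := IsUltrametricDist.exists_norm_finsetSum_le_of_nonempty
      (Finset.nonempty_range_add_one (n := p.natDegree))
      (fun ν => p.coeff ν * FreeAlgebra.lift ℤ (twc (fun l => (l.1 : E) ^ ν) a) X)
    exact hi.trans_lt (hk ν X fun i hi' => hX i (hi'.trans_le (Finset.le_sup hν)))

end

end Vale.Agent.P022D.End
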